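import Vale.Agent.P197.H328.Final

/-!
# Saxl's conjecture for every representation of every permutation group

(1) The tensor square of the Specht module of the staircase contains every Specht module.

(2) The same in intrinsic terms, with an explicit vector: let `r : Fin N → ℕ` take each value `i`
exactly `m - i` times, let `V` be an irreducible representation with a nonzero vector fixed by the
permutations which preserve `r` and a nonzero vector `w` on which they act by the sign (this
characterises the Specht module of the staircase), and let `g` be a permutation such that
`x ↦ (r x, r (g x))` is injective. Then, for all nonzero representations `A`, `B` of a group of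
permutations, `A` has a nonzero equivariant map to `U ⊗ B`, where `U ⊆ V ⊗ V` is the submodule
generated by the single vector `w ⊗ g w`; and the products of the matrix coefficients of `w` and
`g w`, and their translates, span all functions on the group.
-/

namespace Vale.Agent.Results.P197.EveryRepresentation

open Vale.Agent.P197 Vale.Agent.P197.H328 Equiv

theorem result :
    (∀ m : ℕ, 1 ≤ m → ∀ ν : YoungDiagram, ν.card = m * (m + 1) / 2 →
      0 < kron (m * (m + 1) / 2) (staircase m) (staircase m) ν) ∧
    ∀ (m N : ℕ) (r : Fin N → ℕ), (∀ i, Nat.card {x // r x = i} = m - i) →
      (Representation.IsIrreducible (k := ℂ) (V := spechtSub N (staircase m))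
          (specht N (staircase m)) ∧
        (∃ v w : spechtSub N (staircase m), FixedSign r (specht N (staircase m)) v w) ∧
        ∃ g : Perm (Fin N), Function.Injective fun x => (r x, r (g x))) ∧
      ∀ (V : Type) [AddCommGroup V] [Module ℂ V] (σ : Representation ℂ (Perm (Fin N)) V),
        σ.IsIrreducible → ∀ v w : V, FixedSign r σ v w →
          Nonempty (σ.Equiv (specht N (staircase m))) ∧
          ∀ g : Perm (Fin N), (Function.Injective fun x => (r x, r (g x))) →
            Universal σ (pureGen σ w g) ∧ Submodule.span ℂ (coeffProducts σ w g) = ⊤ :=
  ⟨fun m _ ν hν => saxl m ν hν, fun m N r hr =>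
    ⟨⟨specht_irreducible _ ((card_staircase m).trans (card_of_fibers r hr)),
      exists_fixedSign m N r hr, exists_orthogonal r hr⟩,
    fun V _ _ σ hσ v w h => final m N r hr V σ hσ v w h⟩⟩

end Vale.Agent.Results.P197.EveryRepresentation
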