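import Vale.Agent.P197.TS.Main

/-!
# Tensor squares of Specht modules: the staircases, and all large `n`
-/

namespace Vale.Agent.Results.P197.LargeTensorSquares

open Vale.Agent.P197

/-- (1) For the staircase `ρ_m` and every `ν` of the same size, `g(ρ_m, ρ_m, ν) > 0`.
(2) For every `n ≥ 10^8` there is a partition `λ` of `n` such that `g(λ, λ, ν) > 0` for every
partition `ν` of `n`. -/
theorem result :
    (∀ m : ℕ, 1 ≤ m → ∀ nu : YoungDiagram, nu.card = m * (m + 1) / 2 →
      0 < kron (m * (m + 1) / 2) (staircase m) (staircase m) nu) ∧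
    ∀ n : ℕ, 100000000 ≤ n → ∃ lam : YoungDiagram, lam.card = n ∧
      ∀ nu : YoungDiagram, nu.card = n → 0 < kron n lam lam nu :=
  ⟨fun m _ nu hnu => saxl m nu hnu, TS.large⟩

end Vale.Agent.Results.P197.LargeTensorSquares
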