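import Vale.Agent.P197.H369.Main

/-!
# Saxl's conjecture and a common generalisation with the dominance theorem
-/

namespace Vale.Agent.Results.P197.SaxlDominance

open Vale.Agent.P197 Vale.Agent.P197.H369

/-- (1) Saxl's conjecture. (2) Let the rows of `λ` be `k` strictly decreasing rows, then `l` pairs
of consecutive rows `b + 1, b`, strictly decreasing from pair to pair, then the staircase
`m, m - 1, ..., 1`. There is a pure tensor `v ⊗ w` in `S^λ ⊗ S^λ` such that, for every `ν` of the
same size such that the first `t` rows of `ν` contain at least as many cells as the first `t` rows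
of `λ` (`t ≤ k`), and the first `k + 4 t` rows of `ν` at least as many as the first `k + 2 t` rows
of `λ` (`t ≤ l`), one has `g(λ, λ, ν) > 0` and the submodule of `S^λ ⊗ S^λ` generated by `v ⊗ w`
contains a copy of `S^ν`. -/
theorem result :
    (∀ m : ℕ, 1 ≤ m → ∀ ν : YoungDiagram, ν.card = m * (m + 1) / 2 →
      0 < kron (m * (m + 1) / 2) (staircase m) (staircase m) ν) ∧
    ∀ (lam : YoungDiagram) (k l m : ℕ), RowShape lam k l m →
      ∃ v w : spechtSub lam.card lam, ∀ ν : YoungDiagram, ν.card = lam.card →
        Covers lam ν k l → 0 < kron lam.card lam lam ν ∧ OccursIn v w ν := by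
  refine ⟨fun m _ ν hν => saxl m ν hν, fun lam k l m h => ?_⟩
  obtain ⟨v, w, hvw⟩ := exists_pure' lam k l m h
  refine ⟨v, w, fun ν hν hc => ?_⟩
  obtain ⟨f, hf, hf'⟩ := hvw ν hν hc
  exact ⟨kron_pos_of_exists ⟨f, hf⟩, f, hf, hf'⟩

end Vale.Agent.Results.P197.SaxlDominance
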