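import Vale.Agent.P197.H528.Assemble
import Vale.Agent.P197.H528.Std

/-!
# Saxl's conjecture with multiplicities

Write `N_m = m (m + 1) / 2`, `ρ_m = (m, m - 1, ..., 1)` and `g(ρ_m, ρ_m, ν)` for the Kronecker
coefficient `kron N_m (staircase m) (staircase m) ν`.

1. Saxl's conjecture: `g(ρ_m, ρ_m, ν) > 0` for all `m ≥ 1` and all `ν` with `N_m` cells.
2. For every sequence of signs `ε`, the number of chains `ν = ν₀ ⊇ ν₁ ⊇ ν₂ ⊇ ...` with
   `|ν_k| = N_(m - 2 k)`, all columns (if `ε (m - 2 k)` is `true`), respectively all rows (if it is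
   `false`), of the skew shape `ν_k / ν_(k+1)` having at most four cells, is at most
   `g(ρ_m, ρ_m, ν)`.
3. For `m ≥ 26` every diagram `ν` other than one row and one column has
   `g(ρ_m, ρ_m, ν) ≥ m - 1`.
4. If `ν` has more than `a` rows and more than `a` columns and `4 a + 6 ≤ m`, then
   `g(ρ_m, ρ_m, ν) ≥ 2 ^ a`.
-/

namespace Vale.Agent.Results.P197.SaxlMultiplicities

open Vale.Agent.P197

/-- Saxl's conjecture, with lower bounds for the multiplicities. -/
theorem result :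
    (∀ m : ℕ, 1 ≤ m → ∀ ν : YoungDiagram, ν.card = m * (m + 1) / 2 →
      0 < kron (m * (m + 1) / 2) (staircase m) (staircase m) ν) ∧
    (∀ (m : ℕ) (ν : YoungDiagram), ν.card = m * (m + 1) / 2 → ∀ ε : ℕ → Bool,
      chains ε m ν ≤ kron (m * (m + 1) / 2) (staircase m) (staircase m) ν) ∧
    (∀ m : ℕ, 26 ≤ m → ∀ ν : YoungDiagram, ν.card = m * (m + 1) / 2 →
      ν.rowLen 0 ≠ m * (m + 1) / 2 → ν.colLen 0 ≠ m * (m + 1) / 2 →
      m - 1 ≤ kron (m * (m + 1) / 2) (staircase m) (staircase m) ν) ∧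
    (∀ (m a : ℕ) (ν : YoungDiagram), 4 * a + 6 ≤ m → ν.card = m * (m + 1) / 2 →
      a < ν.colLen 0 → a < ν.rowLen 0 →
      2 ^ a ≤ kron (m * (m + 1) / 2) (staircase m) (staircase m) ν) := by
  refine ⟨fun m _ ν hν => saxl m ν hν, fun m ν hν ε => H528.chains_le_kron ε m ν hν,
    fun m hm ν hν h1 h2 => ?_, fun m a ν hm hν h1 h2 => H528.kron_expo hm hν h1 h2⟩
  exact H528.kron_all hm hν h1 h2 (fun h => H528.std_le m (by omega) ν hν h)
    (fun h => H528.std_le_col m (by omega) ν hν h)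

end Vale.Agent.Results.P197.SaxlMultiplicities
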